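import Vale.Agent.P235.ST.H317.Defs

/-! P235, (ST) O(1), row r2 (helper85): `D_lip`, `D_T`, `D_M`. -/

namespace Vale.Agent.P235.STO.H85

open SimpleGraph

variable {V : Type} (W : LWorld V)

/-! ### private forms of what is needed of r1 -/

theorem bg_le (k m : ℕ) : W.Bg k m ≤ W.G := fun _ _ h => h.1

theorem bi_walk (k m : ℕ) {x y : V} (g : (W.Bg k m).Walk x y) : W.bi k m x = W.bi k m y := by
  induction g with
  | nil => rfl
  | cons h _ ih => exact h.2.trans ih

theorem bi_reach (k m : ℕ) {x y : V} (h : (W.Bg k m).Reachable x y) :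
    W.bi k m x = W.bi k m y := by
  obtain ⟨g⟩ := h
  exact bi_walk W k m g

theorem u_walk {x y : V} (g : W.G.Walk x y) : |W.u x - W.u y| ≤ (g.length : ℤ) := by
  induction g with
  | nil => simp
  | @cons a b c h p ih =>
    have h1 := W.unit a b h
    rw [Walk.length_cons]
    push_cast
    have h2 : |W.u a - W.u c| ≤ |W.u a - W.u b| + |W.u b - W.u c| := abs_sub_le _ _ _
    omega

theorem u_bgdist (k m : ℕ) {x y : V} (h : (W.Bg k m).Reachable x y) :
    |W.u x - W.u y| ≤ ((W.Bg k m).dist x y : ℤ) := by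
  obtain ⟨g, hg⟩ := h.exists_walk_length_eq_dist
  have h1 := u_walk W (g.mapLe (bg_le W k m))
  rw [Walk.length_map] at h1
  rw [← hg]
  exact h1

theorem tri (k m : ℕ) {x y z : V} (h1 : (W.Bg k m).Reachable x y)
    (h2 : (W.Bg k m).Reachable y z) :
    (W.Bg k m).dist x z ≤ (W.Bg k m).dist x y + (W.Bg k m).dist y z := by
  obtain ⟨g, hg⟩ := h1.exists_walk_length_eq_dist
  obtain ⟨g', hg'⟩ := h2.exists_walk_length_eq_dist
  rw [← hg, ← hg', ← Walk.length_append]
  exact dist_le _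

/-- a walk of `G` inside one band is a walk of the band graph -/
theorem lift_walk (k m : ℕ) {x y : V} (g : W.G.Walk x y)
    (h : ∀ z ∈ g.support, W.bi k m z = W.bi k m x) :
    ∃ g' : (W.Bg k m).Walk x y, g'.length = g.length := by
  induction g with
  | nil => exact ⟨Walk.nil, rfl⟩
  | @cons a b c hab p ih =>
    have hb : W.bi k m b = W.bi k m a := h b (by simp)
    obtain ⟨g', hg'⟩ := ih fun z hz => by
      rw [hb]; exact h z (by simp [hz])
    exact ⟨Walk.cons (show (W.Bg k m).Adj a b from ⟨hab, hb.symm⟩) g', by simp [hg']⟩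

theorem th_pos (k : ℕ) : 0 < th k := by unfold th; positivity

theorem bi_mono (k m : ℕ) {a b c : V} (h : W.bi k m a = W.bi k m c) (h1 : W.u a ≤ W.u b)
    (h2 : W.u b ≤ W.u c) : W.bi k m b = W.bi k m a := by
  unfold LWorld.bi at *
  have hp := th_pos k
  have e1 : (W.u a + m * 2 ^ k) / th k ≤ (W.u b + m * 2 ^ k) / th k :=
    Int.ediv_le_ediv hp (by linarith)
  have e2 : (W.u b + m * 2 ^ k) / th k ≤ (W.u c + m * 2 ^ k) / th k :=
    Int.ediv_le_ediv hp (by linarith)
  omega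

theorem bi_lt (k m : ℕ) {a b : V} (h : W.bi k m a = W.bi k m b) :
    |W.u a - W.u b| ≤ th k := by
  unfold LWorld.bi at h
  have hp := th_pos k
  have e1 := Int.emod_add_mul_ediv (W.u a + m * 2 ^ k) (th k)
  have e2 := Int.emod_add_mul_ediv (W.u b + m * 2 ^ k) (th k)
  have e3 := Int.emod_nonneg (W.u a + m * 2 ^ k) hp.ne'
  have e4 := Int.emod_nonneg (W.u b + m * 2 ^ k) hp.ne'
  have e5 := Int.emod_lt_of_pos (W.u a + m * 2 ^ k) hp
  have e6 := Int.emod_lt_of_pos (W.u b + m * 2 ^ k) hp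
  rw [h] at e1
  rw [abs_le]
  constructor <;> linarith

theorem walk_level {x y : V} (q : W.G.Walk x y) (hq : (q.length : ℤ) = W.u y - W.u x) :
    ∀ z ∈ q.support, W.u x ≤ W.u z ∧ W.u z ≤ W.u y := by
  classical
  intro z hz
  have h1 := u_walk W (q.takeUntil z hz)
  have h2 := u_walk W (q.dropUntil z hz)
  have h3 : (q.takeUntil z hz).length + (q.dropUntil z hz).length = q.length := by
    rw [← Walk.length_append, Walk.take_spec]
  have h4 : ((q.takeUntil z hz).length : ℤ) + ((q.dropUntil z hz).length : ℤ) = q.length := by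
    exact_mod_cast h3
  rw [abs_le] at h1 h2
  constructor <;> linarith [h1.1, h1.2, h2.1, h2.2]

theorem L_reach (k m : ℕ) {p a b : V} (hp : p ∈ W.N) (ha : a ∈ W.L p) (hb : b ∈ W.L p)
    (h : W.bi k m a = W.bi k m b) :
    (W.Bg k m).Reachable a b ∧ ((W.Bg k m).dist a b : ℤ) ≤ |W.u a - W.u b| := by
  have key : ∀ a b, a ∈ W.L p → b ∈ W.L p → W.bi k m a = W.bi k m b → W.u a ≤ W.u b →
      (W.Bg k m).Reachable a b ∧ ((W.Bg k m).dist a b : ℤ) ≤ |W.u a - W.u b| := by
    intro a b ha hb h hab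
    obtain ⟨q, hq, -⟩ := W.L_path p hp a ha b hb hab
    have hl := walk_level W q hq
    obtain ⟨g, hg⟩ := lift_walk W k m q fun z hz => bi_mono W k m h (hl z hz).1 (hl z hz).2
    refine ⟨⟨g⟩, ?_⟩
    have h1 : (W.Bg k m).dist a b ≤ q.length := hg ▸ dist_le g
    have h2 : |W.u a - W.u b| = W.u b - W.u a := by
      rw [abs_sub_comm]; exact abs_of_nonneg (by linarith)
    rw [h2, ← hq]
    exact_mod_cast h1
  rcases le_total (W.u a) (W.u b) with h1 | h1
  · exact key a b ha hb h h1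
  · obtain ⟨h2, h3⟩ := key b a hb ha h.symm h1
    rw [dist_comm, abs_sub_comm] at h3
    exact ⟨h2.symm, h3⟩

/-! ### the clock -/

theorem src_congr (k m : ℕ) {x y : V} (h : (W.Bg k m).Reachable x y) :
    W.src k m x = W.src k m y := by
  ext z
  unfold LWorld.src
  simp only [Set.mem_ofPred_eq]
  constructor
  · rintro ⟨h1, h2, h3⟩
    exact ⟨h.symm.trans h1, h2, fun t ht h4 => h3 t ht (h.trans h4)⟩
  · rintro ⟨h1, h2, h3⟩
    exact ⟨h.trans h1, h2, fun t ht h4 => h3 t ht (h.symm.trans h4)⟩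

theorem D_attained (k m : ℕ) {x : V} (h : (W.src k m x).Nonempty) :
    ∃ y ∈ W.src k m x, W.D k m x = (W.Bg k m).dist x y := by
  have : {n | ∃ y ∈ W.src k m x, n = (W.Bg k m).dist x y}.Nonempty := by
    obtain ⟨y, hy⟩ := h
    exact ⟨_, y, hy, rfl⟩
  exact Nat.sInf_mem this

theorem D_le (k m : ℕ) {x y : V} (h : y ∈ W.src k m x) :
    W.D k m x ≤ (W.Bg k m).dist x y := Nat.sInf_le ⟨y, h, rfl⟩

theorem src_nonempty (k m : ℕ) {x y : V} (hy : y ∈ W.N) (h : (W.Bg k m).Reachable x y) :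
    (W.src k m x).Nonempty := by
  classical
  have hex : ∃ n, ∃ z ∈ W.N, (W.Bg k m).Reachable x z ∧ W.idx z = n := ⟨_, y, hy, h, rfl⟩
  obtain ⟨z, hz, hxz, hzn⟩ := Nat.find_spec hex
  refine ⟨z, hxz, hz, fun t ht hxt => ?_⟩
  rw [hzn]
  exact Nat.find_min' hex ⟨t, ht, hxt, rfl⟩

theorem D_lip [Finite V] (k m : ℕ) {x y : V} (h : (W.Bg k m).Reachable x y) :
    (W.D k m y : ℤ) ≤ W.D k m x + (W.Bg k m).dist x y := by
  rcases (W.src k m x).eq_empty_or_nonempty with he | hne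
  · have h1 : W.D k m y = 0 := by
      have h2 : W.src k m y = ∅ := by rw [← src_congr W k m h]; exact he
      unfold LWorld.D
      rw [h2]
      simp
    rw [h1]
    positivity
  · obtain ⟨z, hz, hD⟩ := D_attained W k m hne
    have h1 : z ∈ W.src k m y := by rw [← src_congr W k m h]; exact hz
    have h2 := D_le W k m h1
    have h3 := tri W k m h.symm hz.1
    rw [dist_comm (u := y) (v := x)] at h3
    rw [hD]
    exact_mod_cast (by omega : W.D k m y ≤ (W.Bg k m).dist x z + (W.Bg k m).dist x y)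

/-- the optimal path to `q` meets the line of `p` -/
theorem meet (k m : ℕ) {p q : V} (hp : p ∈ W.N) (hq : q ∈ W.N)
    (h : (W.Bg k m).Reachable p q) (hi : W.idx p ≤ W.idx q) :
    ∃ z y, z ∈ W.L p ∧ y ∈ W.src k m q ∧ (W.Bg k m).Reachable q z ∧ (W.Bg k m).Reachable z y ∧
      (W.Bg k m).dist q z + (W.Bg k m).dist z y ≤ W.D k m q := by
  classical
  obtain ⟨y, hy, hD⟩ := D_attained W k m (src_nonempty W k m hq (Reachable.refl q))
  obtain ⟨g, hg⟩ := hy.1.exists_walk_length_eq_dist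
  obtain ⟨z, hz, hzL⟩ := W.sep p hp y hy.2.1 q hq (hy.2.2 p hp h.symm) hi
    ((g.mapLe (bg_le W k m)).reverse)
  have hz' : z ∈ g.support := by
    rw [Walk.support_reverse, List.mem_reverse] at hz
    simpa using hz
  refine ⟨z, y, hzL, hy, ⟨g.takeUntil z hz'⟩, ⟨g.dropUntil z hz'⟩, ?_⟩
  rw [hD, ← hg, ← Walk.take_spec g hz', Walk.length_append]
  exact Nat.add_le_add (dist_le _) (dist_le _)

theorem D_T [Finite V] (k m : ℕ) {p q : V} (hp : p ∈ W.N) (hq : q ∈ W.N)
    (h : (W.Bg k m).Reachable p q) (hi : W.idx p ≤ W.idx q) :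
    (W.D k m p : ℤ) + (W.Bg k m).dist p q ≤ W.D k m q + 2 * th k := by
  obtain ⟨z, y, hzL, hy, hqz, hzy, hsum⟩ := meet W k m hp hq h hi
  have hpz : (W.Bg k m).Reachable p z := h.trans hqz
  obtain ⟨-, h1⟩ := L_reach W k m hp (W.mem_L p hp) hzL (bi_reach W k m hpz)
  have h2 := bi_lt W k m (bi_reach W k m hpz)
  have h3 := D_le W k m (show y ∈ W.src k m p by rw [src_congr W k m h]; exact hy)
  have h4 := tri W k m hpz hzy
  have h5 := tri W k m hpz hqz.symm
  rw [dist_comm (u := z) (v := q)] at h5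
  omega

theorem D_M [Finite V] (k m : ℕ) {q y : V} (hq : q ∈ W.N) (hy : y ∈ W.N)
    (h : (W.Bg k m).Reachable q y) (hi : W.idx q ≤ W.idx y) :
    (W.D k m q : ℤ) ≤ W.D k m y + |W.u q - W.u y| := by
  obtain ⟨z, y0, hzL, hy0, hyz, hzy0, hsum⟩ := meet W k m hq hy h hi
  have hqz : (W.Bg k m).Reachable q z := h.trans hyz
  obtain ⟨-, h1⟩ := L_reach W k m hq (W.mem_L q hq) hzL (bi_reach W k m hqz)
  have h2 : |W.u q - W.u z| ≤ |W.u q - W.u y| + |W.u y - W.u z| := abs_sub_le _ _ _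
  have h3 := D_le W k m (show y0 ∈ W.src k m q by rw [src_congr W k m h]; exact hy0)
  have h4 := tri W k m hqz hzy0
  have h5 := u_bgdist W k m hyz
  omega

end Vale.Agent.P235.STO.H85
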